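import Mathlib
import Vale.Agent.Lib.LinCircuitDiv

open Vale.Agent.Lib.LinCircuit

namespace Vale.Agent.Results.P344.DivisorBound

/-- Any linear circuit (gates `u + v`, `u - v`, `c * u`; inputs `x_0, ..., x_{n-1}` and the
constant `0`) whose designated outputs equal `F_n x` for every `x` has at least `2n - 2`
addition/subtraction gates and at least `n - d(n)` scalar gates, where `d(n)` is the number of
divisors of `n`; hence it has at least `3n - d(n) - 2 ≥ 3n - 2 √n - 2` gates. -/
theorem result (n : ℕ) (hn : 2 ≤ n) (gs : List Gate) (out : Fin n → ℕ)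
    (h : ∀ (x : Fin n → ℂ) (j : Fin n),
      (run (List.ofFn x ++ [0]) gs).getD (out j) 0
        = ∑ k : Fin n,
            Complex.exp (2 * Real.pi * Complex.I / n) ^ ((j : ℕ) * (k : ℕ)) * x k) :
    2 * n - 2 ≤ binCount gs ∧ n - (Nat.divisors n).card ≤ scalCount gs ∧
      3 * n - (Nat.divisors n).card - 2 ≤ gs.length ∧
      3 * n - 2 * Nat.sqrt n - 2 ≤ gs.length := by
  obtain ⟨h1, h2, h3⟩ :=
    main_count_div hn (Complex.isPrimitiveRoot_exp n (by omega)) gs out h
  refine ⟨h1, h2, h3, ?_⟩
  have h4 := card_divisors_le_two_sqrt n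
  omega

end Vale.Agent.Results.P344.DivisorBound
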