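import Mathlib
import Vale.Agent.Lib.LinCircuit

open Vale.Agent.Lib.LinCircuit

namespace Vale.Agent.Results.P344.LinearBound

/-- Any linear circuit (gates `u + v`, `u - v`, `c * u`; inputs `x_0, ..., x_{n-1}` and the
constant `0`) whose designated outputs equal `F_n x` for every `x` has at least `2n - 2`
addition/subtraction gates and at least `φ(n) - 1` scalar gates, hence at least
`2n + φ(n) - 3` gates. -/
theorem result (n : ℕ) (hn : 2 ≤ n) (gs : List Gate) (out : Fin n → ℕ)
    (h : ∀ (x : Fin n → ℂ) (j : Fin n),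
      (run (List.ofFn x ++ [0]) gs).getD (out j) 0
        = ∑ k : Fin n,
            Complex.exp (2 * Real.pi * Complex.I / n) ^ ((j : ℕ) * (k : ℕ)) * x k) :
    2 * n - 2 ≤ binCount gs ∧ Nat.totient n - 1 ≤ scalCount gs ∧
      2 * n + Nat.totient n - 3 ≤ gs.length :=
  main_count hn (Complex.isPrimitiveRoot_exp n (by omega)) gs out h

end Vale.Agent.Results.P344.LinearBound
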